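import Mathlib

/-!
# P038, helper728: digraphs as finsets of pairs, closed out-neighbourhoods, 294's (G), unweighted
-/

open Finset

namespace Vale.Agent.P038.H728

variable {V : Type*} [Fintype V] [DecidableEq V]

/-- closed out-neighbourhood of a set -/
def Nb (E : Finset (V × V)) (S : Finset V) : Finset V :=
  univ.filter (fun y => ∃ x ∈ S, x = y ∨ (x, y) ∈ E)

lemma mem_Nb (E : Finset (V × V)) (S : Finset V) (y : V) :
    y ∈ Nb E S ↔ ∃ x ∈ S, x = y ∨ (x, y) ∈ E := by
  simp [Nb]

lemma sub_Nb (E : Finset (V × V)) (S : Finset V) : S ⊆ Nb E S := by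
  intro x hx
  rw [mem_Nb]
  exact ⟨x, hx, Or.inl rfl⟩

lemma Nb_mono (E : Finset (V × V)) {S T : Finset V} (h : S ⊆ T) : Nb E S ⊆ Nb E T := by
  intro x hx
  rw [mem_Nb] at hx ⊢
  obtain ⟨y, hy, h'⟩ := hx
  exact ⟨y, h hy, h'⟩

lemma Nb_union (E : Finset (V × V)) (S T : Finset V) : Nb E (S ∪ T) = Nb E S ∪ Nb E T := by
  ext y
  simp only [mem_Nb, mem_union]
  constructor
  · rintro ⟨x, hx | hx, h⟩
    · exact Or.inl ⟨x, hx, h⟩
    · exact Or.inr ⟨x, hx, h⟩
  · rintro (⟨x, hx, h⟩ | ⟨x, hx, h⟩)
    · exact ⟨x, Or.inl hx, h⟩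
    · exact ⟨x, Or.inr hx, h⟩

/-- size of the outer boundary -/
def cc (E : Finset (V × V)) (S : Finset V) : ℕ := (Nb E S \ S).card

lemma cc_add (E : Finset (V × V)) (S : Finset V) : cc E S + S.card = (Nb E S).card := by
  unfold cc
  exact card_sdiff_add_card_eq_card (sub_Nb E S)

lemma cc_sub (E : Finset (V × V)) (S T : Finset V) :
    cc E (S ∩ T) + cc E (S ∪ T) ≤ cc E S + cc E T := by
  have h1 := cc_add E S
  have h2 := cc_add E T
  have h3 := cc_add E (S ∩ T)
  have h4 := cc_add E (S ∪ T)
  have h5 := card_union_add_card_inter S T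
  have h6 := card_union_add_card_inter (Nb E S) (Nb E T)
  have h7 : (Nb E (S ∩ T)).card ≤ (Nb E S ∩ Nb E T).card :=
    card_le_card (subset_inter (Nb_mono E inter_subset_left) (Nb_mono E inter_subset_right))
  rw [Nb_union] at h4
  omega

/-- first out-neighbourhood -/
def N1 (E : Finset (V × V)) (v : V) : Finset V := univ.filter (fun u => (v, u) ∈ E)

/-- second out-neighbourhood -/
def N2 (E : Finset (V × V)) (v : V) : Finset V :=
  univ.filter (fun w => w ≠ v ∧ (v, w) ∉ E ∧ ∃ u, (v, u) ∈ E ∧ (u, w) ∈ E)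

/-- counterexample to Seymour's second neighbourhood conjecture -/
def IsCE (E : Finset (V × V)) : Prop :=
  (∀ a b, (a, b) ∈ E → (b, a) ∉ E) ∧ ∀ v, (N2 E v).card < (N1 E v).card

/-- (G) of helper294 -/
theorem GG (E : Finset (V × V)) (hE : IsCE E)
    (hmin : ∀ E' : Finset (V × V), IsCE E' → E.card ≤ E'.card)
    (X : Finset V) (hX : (Nb E X \ X).Nonempty) : cc E (Nb E X) < cc E X := by
  by_contra hcon
  push Not at hcon
  set L := Nb E X \ X with hL
  -- the deficiency function
  let d : Finset V → ℤ := fun T => ((Nb E T \ X).card : ℤ) - 2 * (T.card : ℤ)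
  have dL : 0 ≤ d L := by
    have h1 : L ∪ (Nb E (Nb E X) \ Nb E X) ⊆ Nb E L \ X := by
      intro y hy
      rw [mem_union] at hy
      rw [mem_sdiff]
      rcases hy with hy | hy
      · exact ⟨sub_Nb E L hy, (mem_sdiff.mp hy).2⟩
      · rw [mem_sdiff] at hy
        obtain ⟨hy1, hy2⟩ := hy
        rw [mem_Nb] at hy1
        obtain ⟨x, hx, h⟩ := hy1
        have hxX : x ∉ X := by
          intro hxX
          apply hy2
          rw [mem_Nb]
          exact ⟨x, hxX, h⟩
        refine ⟨?_, fun hyX => hy2 (sub_Nb E X hyX)⟩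
        rw [mem_Nb]
        exact ⟨x, mem_sdiff.mpr ⟨hx, hxX⟩, h⟩
    have h2 : Disjoint L (Nb E (Nb E X) \ Nb E X) := by
      rw [disjoint_left]
      intro y h h'
      exact (mem_sdiff.mp h').2 (mem_sdiff.mp h).1
    have h3 := card_le_card h1
    rw [card_union_of_disjoint h2] at h3
    have h4 : (Nb E (Nb E X) \ Nb E X).card = cc E (Nb E X) := rfl
    have h5 : L.card = cc E X := rfl
    have h6 : d L = ((Nb E L \ X).card : ℤ) - 2 * (L.card : ℤ) := rfl
    rw [h6]
    omega
  have hne : (L.ssubsets).Nonempty := ⟨∅, by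
    rw [mem_ssubsets]
    exact hX.empty_ssubset⟩
  obtain ⟨T, hT, hTmin⟩ := exists_min_image L.ssubsets d hne
  rw [mem_ssubsets] at hT
  have dT0 : d T ≤ 0 := by
    have h0 := hTmin ∅ (by rw [mem_ssubsets]; exact hX.empty_ssubset)
    have h1 : d ∅ = 0 := by
      have : Nb E (∅ : Finset V) = ∅ := by
        ext y
        simp [mem_Nb]
      simp [d, this]
    omega
  have hall : ∀ D' : Finset V, D' ⊆ L \ T →
      2 * D'.card ≤ (Nb E D' \ (Nb E T ∪ X)).card := by
    intro D' hD'
    have hdisj : Disjoint T D' := by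
      rw [disjoint_left]
      intro y h h'
      exact (mem_sdiff.mp (hD' h')).2 h
    have hsub : T ∪ D' ⊆ L := union_subset hT.subset (fun y hy => (mem_sdiff.mp (hD' hy)).1)
    have hd : d T ≤ d (T ∪ D') := by
      by_cases h : T ∪ D' = L
      · rw [h]
        omega
      · refine hTmin _ ?_
        rw [mem_ssubsets]
        exact lt_of_le_of_ne hsub h
    have h1 : (Nb E (T ∪ D') \ X) = (Nb E T \ X) ∪ (Nb E D' \ (Nb E T ∪ X)) := by
      rw [Nb_union]
      ext y
      simp only [mem_sdiff, mem_union]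
      tauto
    have h2 : Disjoint (Nb E T \ X) (Nb E D' \ (Nb E T ∪ X)) := by
      rw [disjoint_left]
      intro y h h'
      exact (mem_sdiff.mp h').2 (mem_union_left _ (mem_sdiff.mp h).1)
    have h3 : d (T ∪ D') = ((Nb E (T ∪ D') \ X).card : ℤ) - 2 * ((T ∪ D').card : ℤ) := rfl
    have h4 : d T = ((Nb E T \ X).card : ℤ) - 2 * (T.card : ℤ) := rfl
    rw [h1, card_union_of_disjoint h2, card_union_of_disjoint hdisj] at h3
    push_cast at h3
    omega
  -- the smaller digraph
  set E' : Finset (V × V) := E.filter (fun p => ¬ (p.1 ∈ X ∧ p.2 ∉ X ∧ p.2 ∉ T)) with hE'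
  have mE' : ∀ a b, (a, b) ∈ E' ↔ (a, b) ∈ E ∧ ¬ (a ∈ X ∧ b ∉ X ∧ b ∉ T) := by
    intro a b
    rw [hE', mem_filter]
  have hlt : E'.card < E.card := by
    refine card_lt_card ?_
    refine (filter_subset _ _).ssubset_of_ne ?_
    intro heq
    obtain ⟨l, hl, hlT⟩ := exists_of_ssubset hT
    have hl' := mem_sdiff.mp hl
    obtain ⟨x, hx, h⟩ := (mem_Nb E X l).mp hl'.1
    rcases h with h | h
    · exact hl'.2 (h ▸ hx)
    · rw [← heq] at h
      rw [mem_filter] at h
      exact h.2 ⟨hx, hl'.2, hlT⟩
  have hCE : IsCE E' := by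
    refine ⟨fun a b h h' => hE.1 a b ((mE' a b).mp h).1 ((mE' b a).mp h').1, fun v => ?_⟩
    by_cases hv : v ∈ X
    · -- row in X
      set Dy : Finset V := univ.filter (fun u => (v, u) ∈ E ∧ u ∉ X ∧ u ∉ T) with hDy
      have mDy : ∀ u, u ∈ Dy ↔ (v, u) ∈ E ∧ u ∉ X ∧ u ∉ T := by
        intro u
        simp [hDy]
      have hDsub : Dy ⊆ L \ T := by
        intro u hu
        rw [mDy] at hu
        rw [mem_sdiff, hL, mem_sdiff, mem_Nb]
        exact ⟨⟨⟨v, hv, Or.inr hu.1⟩, hu.2.1⟩, hu.2.2⟩
      have hh := hall Dy hDsub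
      have c1 : (N1 E' v).card + Dy.card = (N1 E v).card := by
        rw [← card_union_of_disjoint]
        · congr 1
          ext u
          simp only [mem_union, mDy, N1, mem_filter, mem_univ, true_and, mE']
          tauto
        · rw [disjoint_left]
          intro u h h'
          simp only [N1, mem_filter, mem_univ, true_and, mE'] at h
          rw [mDy] at h'
          exact h.2 ⟨hv, h'.2.1, h'.2.2⟩
      have c2 : (N2 E' v).card + (Nb E Dy \ (Nb E T ∪ X)).card ≤ (N2 E v).card + Dy.card := by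
        have hdis : Disjoint (N2 E' v) (Nb E Dy \ (Nb E T ∪ X)) := by
          rw [disjoint_left]
          intro z h h'
          simp only [N2, mem_filter, mem_univ, true_and, mE'] at h
          rw [mem_sdiff, mem_union] at h'
          push Not at h'
          obtain ⟨_, hzT, hzX⟩ := h'
          obtain ⟨_, _, u, ⟨hvu, hvu'⟩, huz, huz'⟩ := h
          have hzT' : z ∉ T := fun hh => hzT (sub_Nb E T hh)
          have huX : u ∉ X := fun hu => huz' ⟨hu, hzX, hzT'⟩
          have huT : u ∈ T := by
            by_contra hu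
            exact hvu' ⟨hv, huX, hu⟩
          apply hzT
          rw [mem_Nb]
          exact ⟨u, huT, Or.inr huz⟩
        rw [← card_union_of_disjoint hdis]
        refine (card_le_card ?_).trans (card_union_le _ _)
        intro z hz
        rw [mem_union] at hz
        rw [mem_union]
        rcases hz with hz | hz
        · simp only [N2, mem_filter, mem_univ, true_and, mE'] at hz
          obtain ⟨hzv, hvz, u, ⟨hvu, _⟩, huz, _⟩ := hz
          by_cases h : (v, z) ∈ E
          · right
            rw [mDy]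
            refine ⟨h, ?_, ?_⟩
            · intro hzX
              exact hvz ⟨h, fun hh => hh.2.1 hzX⟩
            · intro hzT
              exact hvz ⟨h, fun hh => hh.2.2 hzT⟩
          · left
            simp only [N2, mem_filter, mem_univ, true_and]
            exact ⟨hzv, h, u, hvu, huz⟩
        · rw [mem_sdiff, mem_union] at hz
          push Not at hz
          obtain ⟨hz1, hzT, hzX⟩ := hz
          have hzT' : z ∉ T := fun hh => hzT (sub_Nb E T hh)
          by_cases h : (v, z) ∈ E
          · right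
            rw [mDy]
            exact ⟨h, hzX, hzT'⟩
          · left
            simp only [N2, mem_filter, mem_univ, true_and]
            refine ⟨fun hh => hzX (hh ▸ hv), h, ?_⟩
            rw [mem_Nb] at hz1
            obtain ⟨u, hu, h'⟩ := hz1
            rw [mDy] at hu
            rcases h' with h' | h'
            · exact absurd (h' ▸ hu.1) h
            · exact ⟨u, hu.1, h'⟩
      have := hE.2 v
      omega
    · -- row outside X
      have e1 : N1 E' v = N1 E v := by
        ext u
        simp only [N1, mem_filter, mem_univ, true_and, mE']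
        tauto
      have e2 : N2 E' v ⊆ N2 E v := by
        intro z hz
        simp only [N2, mem_filter, mem_univ, true_and, mE'] at hz ⊢
        obtain ⟨hzv, hvz, u, ⟨hvu, _⟩, huz, _⟩ := hz
        exact ⟨hzv, fun h => hvz ⟨h, fun hh => hv hh.1⟩, u, hvu, huz⟩
      rw [e1]
      exact lt_of_le_of_lt (card_le_card e2) (hE.2 v)
  have := hmin E' hCE
  omega

end Vale.Agent.P038.H728
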