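import Vale.Agent.P038.H728.Star
import Vale.Agent.P038.H728.GG

/-!
# P038, helper728: the comparison of the two cuts and Seymour's second neighbourhood conjecture
-/

open Finset

namespace Vale.Agent.P038.H728

variable {V : Type*} [Fintype V] [DecidableEq V]

/-- outer feasible pairs of families -/
def Outer (E : Finset (V × V)) (P Q : V → Finset V) : Prop :=
  (∀ a b, (a = b ∨ (a, b) ∈ E) → b ∈ P a) ∧ (∀ a b, (a = b ∨ (a, b) ∈ E) → b ∈ Q a) ∧
    ∀ a b, b ∈ P a → a ∈ Q b → a = b

/-- cost of a pair -/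
def cost (E : Finset (V × V)) (P Q : V → Finset V) : ℕ := ∑ a, cc E (P a) + ∑ a, cc E (Q a)

lemma exists_outer (E : Finset (V × V)) (hE : ∀ a b, (a, b) ∈ E → (b, a) ∉ E) :
    ∃ P Q : V → Finset V, Outer E P Q ∧ ∀ P' Q', Outer E P' Q' → cost E P Q ≤ cost E P' Q' := by
  classical
  have hne : ∃ n, ∃ P Q : V → Finset V, Outer E P Q ∧ cost E P Q = n := by
    refine ⟨_, fun a => Nb E {a}, fun a => Nb E {a}, ⟨?_, ?_, ?_⟩, rfl⟩
    · intro a b h
      rw [mem_Nb]
      exact ⟨a, mem_singleton_self _, h⟩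
    · intro a b h
      rw [mem_Nb]
      exact ⟨a, mem_singleton_self _, h⟩
    · intro a b h h'
      rw [mem_Nb] at h h'
      obtain ⟨x, hx, h⟩ := h
      obtain ⟨y, hy, h'⟩ := h'
      rw [mem_singleton] at hx hy
      subst hx
      subst hy
      rcases h with h | h
      · exact h
      · rcases h' with h' | h'
        · exact h'.symm
        · exact absurd h' (hE _ _ h)
  obtain ⟨P, Q, hPQ, hc⟩ := Nat.find_spec hne
  refine ⟨P, Q, hPQ, fun P' Q' h' => ?_⟩
  rw [hc]
  exact Nat.find_min' hne ⟨P', Q', h', rfl⟩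

lemma sum_update_le (c : Finset V → ℕ) (P : V → Finset V) (a : V) (S : Finset V)
    (h : ∑ x, c (P x) ≤ ∑ x, c (Function.update P a S x)) : c (P a) ≤ c S := by
  rw [← Finset.add_sum_erase univ (fun x => c (P x)) (mem_univ a),
    ← Finset.add_sum_erase univ (fun x => c (Function.update P a S x)) (mem_univ a)] at h
  have e : ∑ x ∈ univ.erase a, c (Function.update P a S x) = ∑ x ∈ univ.erase a, c (P x) :=
    sum_congr rfl (fun x hx => by rw [Function.update_of_ne (ne_of_mem_erase hx)])
  rw [e, Function.update_self] at h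
  omega

lemma cnt (R1 R2 : V → Finset V) :
    ∑ v, (R1 v).card + ∑ b, (R2 b).card
      = ∑ v, ∑ b, ((if b ∈ R1 v then 1 else 0) + (if v ∈ R2 b then 1 else 0)) := by
  have h1 : ∀ v, (R1 v).card = ∑ b, if b ∈ R1 v then 1 else 0 := by
    intro v
    simp
  have h2 : ∑ b, (R2 b).card = ∑ v, ∑ b, if v ∈ R2 b then 1 else 0 := by
    rw [sum_comm]
    refine sum_congr rfl (fun b _ => by simp)
  rw [h2]
  simp_rw [sum_add_distrib]
  congr 1
  exact sum_congr rfl (fun v _ => h1 v)

/-- the common value `n^2 + n` -/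
def KK (V : Type*) [Fintype V] [DecidableEq V] : ℕ :=
  ∑ v : V, ∑ b : V, (1 + if b = v then 1 else 0)

lemma cnt_eq (R1 R2 : V → Finset V) (h : ∀ v b, b ≠ v → (b ∈ R1 v ↔ v ∉ R2 b))
    (hd : ∀ v, v ∈ R1 v ∧ v ∈ R2 v) :
    ∑ v, (R1 v).card + ∑ b, (R2 b).card = KK V := by
  rw [cnt, KK]
  refine sum_congr rfl (fun v _ => sum_congr rfl (fun b _ => ?_))
  by_cases hb : b = v
  · subst hb
    simp [(hd b).1, (hd b).2]
  · have := h v b hb
    by_cases h1 : b ∈ R1 v
    · simp [h1, hb, this.mp h1]
    · have h2 : v ∈ R2 b := by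
        by_contra h2
        exact h1 (this.mpr h2)
      simp [h1, hb, h2]

lemma cnt_le (R1 R2 : V → Finset V) (h : ∀ v b, b ∈ R1 v → v ∈ R2 b → b = v) :
    ∑ v, (R1 v).card + ∑ b, (R2 b).card ≤ KK V := by
  rw [cnt, KK]
  refine sum_le_sum (fun v _ => sum_le_sum (fun b _ => ?_))
  by_cases hb : b = v
  · subst hb
    simp only [if_true]
    split_ifs <;> omega
  · by_cases h1 : b ∈ R1 v
    · by_cases h2 : v ∈ R2 b
      · exact absurd (h v b h1 h2) hb
      · simp [h1, hb, h2]
    · simp only [h1, hb, if_false]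
      split_ifs <;> omega

/-- the comparison of the two cuts, at an outer minimiser -/
theorem compare (E : Finset (V × V)) (hE : ∀ a b, (a, b) ∈ E → (b, a) ∉ E)
    (P Q : V → Finset V) (hPQ : Outer E P Q)
    (hmin : ∀ P' Q', Outer E P' Q' → cost E P Q ≤ cost E P' Q') :
    ∃ X Y : V → Finset V, (∀ a, a ∈ X a) ∧ (∀ a, a ∈ Y a) ∧
      Outer E (fun a => Nb E (X a)) (fun a => Nb E (Y a)) ∧ cost E X Y ≤ cost E P Q := by
  obtain ⟨hP, hQ, hO⟩ := hPQ
  -- notation
  let I : V → Finset V := fun v => univ.filter (fun z => z = v ∨ (z, v) ∈ E)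
  have mI : ∀ v z, z ∈ I v ↔ (z = v ∨ (z, v) ∈ E) := by
    intro v z
    simp [I]
  let U : V → Finset V := fun a => univ.filter (fun x => x = a ∨ a ∉ Q x)
  have mU : ∀ a x, x ∈ U a ↔ (x = a ∨ a ∉ Q x) := by
    intro a x
    simp [U]
  let X : V → Finset V := fun v => univ.filter (fun b => ∀ z ∈ I v, b ∈ P z)
  have mX : ∀ v b, b ∈ X v ↔ ∀ z ∈ I v, b ∈ P z := by
    intro v b
    simp [X]
  let Y : V → Finset V := fun v => univ.filter (fun b => ∀ z ∈ I v, b ∈ Q z)
  have mY : ∀ v b, b ∈ Y v ↔ ∀ z ∈ I v, b ∈ Q z := by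
    intro v b
    simp [Y]
  let U' : V → Finset V := fun v => univ.filter (fun b => ∀ z ∈ I v, b ∈ U z)
  have mU' : ∀ v b, b ∈ U' v ↔ ∀ z ∈ I v, b ∈ U z := by
    intro v b
    simp [U']
  have hII : ∀ v, v ∈ I v := fun v => (mI v v).mpr (Or.inl rfl)
  have hPa : ∀ a, a ∈ P a := fun a => hP a a (Or.inl rfl)
  have hQa : ∀ a, a ∈ Q a := fun a => hQ a a (Or.inl rfl)
  have hXa : ∀ a, a ∈ X a := by
    intro a
    rw [mX]
    intro z hz
    exact hP z a ((mI a z).mp hz)
  have hYa : ∀ a, a ∈ Y a := by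
    intro a
    rw [mY]
    intro z hz
    exact hQ z a ((mI a z).mp hz)
  have hLU : ∀ a, P a ⊆ U a := by
    intro a b hb
    rw [mU]
    by_cases h : b = a
    · exact Or.inl h
    · right
      intro h'
      exact h (hO a b hb h').symm
  -- the inner pair is compatible
  have comp : ∀ a b, b ∈ Nb E (X a) → a ∈ Nb E (Y b) → a = b := by
    intro a b h h'
    rw [mem_Nb] at h h'
    obtain ⟨x, hx, hxb⟩ := h
    obtain ⟨y, hy, hya⟩ := h'
    have h1 : x ∈ P y := (mX a x).mp hx y ((mI a y).mpr hya)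
    have h2 : y ∈ Q x := (mY b y).mp hy x ((mI b x).mpr hxb)
    have h3 : y = x := hO y x h1 h2
    subst h3
    have h4 : y ∈ P a := (mX a y).mp hx a (hII a)
    have h5 : a ∈ Q y := hQ y a hya
    have h6 : a = y := hO a y h4 h5
    have h7 : y ∈ Q b := (mY b y).mp hy b (hII b)
    have h8 : b ∈ P y := hP y b hxb
    have h9 : y = b := hO y b h8 h7
    exact h6.trans h9
  refine ⟨X, Y, hXa, hYa, ⟨?_, ?_, comp⟩, ?_⟩
  · intro a b h
    rw [mem_Nb]
    exact ⟨a, hXa a, h⟩
  · intro a b h
    rw [mem_Nb]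
    exact ⟨a, hYa a, h⟩
  -- the key inequality
  have hR : ∀ a S, P a ⊆ S → S ⊆ U a → cc E (P a) ≤ cc E S := by
    intro a S h1 h2
    refine sum_update_le (cc E) P a S ?_
    have hO' : Outer E (Function.update P a S) Q := by
      refine ⟨?_, hQ, ?_⟩
      · intro x b h
        by_cases hx : x = a
        · subst hx
          rw [Function.update_self]
          exact h1 (hP x b h)
        · rw [Function.update_of_ne hx]
          exact hP x b h
      · intro x b h h'
        by_cases hx : x = a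
        · subst hx
          rw [Function.update_self] at h
          rcases (mU x b).mp (h2 h) with h3 | h3
          · exact h3.symm
          · exact absurd h' h3
        · rw [Function.update_of_ne hx] at h
          exact hO x b h h'
    have := hmin _ _ hO'
    unfold cost at this
    omega
  have hC : ∀ b, ∀ T : Finset V, (∀ a ∈ T, b ∈ U a ∧ b ∉ P a) →
      T.card ≤ (univ.filter (fun v => b ∈ U' v ∧ ∃ z ∈ I v, z ∈ T)).card := by
    intro b T hT
    have hTQ : Disjoint (Q b) T := by
      rw [disjoint_left]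
      intro a h h'
      obtain ⟨h1, h2⟩ := hT a h'
      rcases (mU a b).mp h1 with h3 | h3
      · exact h2 (h3 ▸ hPa a)
      · exact h3 h
    have hO' : Outer E P (Function.update Q b (Q b ∪ T)) := by
      refine ⟨hP, ?_, ?_⟩
      · intro x a h
        by_cases hx : x = b
        · subst hx
          rw [Function.update_self]
          exact mem_union_left _ (hQ x a h)
        · rw [Function.update_of_ne hx]
          exact hQ x a h
      · intro a x h h'
        by_cases hx : x = b
        · subst hx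
          rw [Function.update_self, mem_union] at h'
          rcases h' with h' | h'
          · exact hO a x h h'
          · exact absurd h (hT a h').2
        · rw [Function.update_of_ne hx] at h'
          exact hO a x h h'
    have h1 : cc E (Q b) ≤ cc E (Q b ∪ T) := by
      refine sum_update_le (cc E) Q b _ ?_
      have := hmin _ _ hO'
      unfold cost at this
      omega
    have h2 := cc_add E (Q b)
    have h3 := cc_add E (Q b ∪ T)
    rw [card_union_of_disjoint hTQ] at h3
    have h4 : (Nb E (Q b ∪ T)).card ≤ (Nb E (Q b)).card + (Nb E T \ Nb E (Q b)).card := by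
      rw [Nb_union, ← union_sdiff_self_eq_union]
      exact card_union_le _ _
    have h5 : (Nb E T \ Nb E (Q b)).card
        ≤ (univ.filter (fun v => b ∈ U' v ∧ ∃ z ∈ I v, z ∈ T)).card := by
      refine card_le_card ?_
      intro v hv
      rw [mem_sdiff] at hv
      obtain ⟨hv1, hv2⟩ := hv
      rw [mem_filter]
      refine ⟨mem_univ _, ?_, ?_⟩
      · rw [mU']
        intro z hz
        rw [mU]
        right
        intro hzQ
        apply hv2
        rw [mem_Nb]
        exact ⟨z, hzQ, (mI v z).mp hz⟩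
      · rw [mem_Nb] at hv1
        obtain ⟨z, hz, h⟩ := hv1
        exact ⟨z, (mI v z).mpr h, hz⟩
    omega
  have key := star (cc E) (cc_sub E) P U X U' I hII mX mU' hLU hR hC
  -- bookkeeping
  have b1 : ∑ v, (U v).card + ∑ b, (Q b).card = KK V := by
    refine cnt_eq U Q ?_ ?_
    · intro v b hb
      rw [mU]
      simp [hb]
    · intro v
      exact ⟨(mU v v).mpr (Or.inl rfl), hQa v⟩
  have b2 : ∑ v, (U' v).card + ∑ b, (Nb E (Q b)).card = KK V := by
    refine cnt_eq U' (fun b => Nb E (Q b)) ?_ ?_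
    · intro v b hb
      constructor
      · intro h h'
        rw [mU'] at h
        rw [mem_Nb] at h'
        obtain ⟨z, hz, h'⟩ := h'
        rcases (mU z b).mp (h z ((mI v z).mpr h')) with h1 | h1
        · subst h1
          rcases (mU v b).mp (h v (hII v)) with h2 | h2
          · exact hb h2
          · exact h2 (hQ b v h')
        · exact h1 hz
      · intro h
        rw [mU']
        intro z hz
        rw [mU]
        right
        intro hzQ
        apply h
        rw [mem_Nb]
        exact ⟨z, hzQ, (mI v z).mp hz⟩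
    · intro v
      refine ⟨?_, sub_Nb E _ (hQa v)⟩
      rw [mU']
      intro z hz
      rw [mU]
      by_cases h : v = z
      · exact Or.inl h
      · right
        intro hzQ
        exact h (hO z v (hP z v ((mI v z).mp hz)) hzQ).symm
  have b3 : ∑ a, (Nb E (U a)).card + ∑ b, (Y b).card = KK V := by
    refine cnt_eq (fun a => Nb E (U a)) Y ?_ ?_
    · intro a b hb
      constructor
      · intro h h'
        rw [mem_Nb] at h
        obtain ⟨z, hz, h⟩ := h
        rw [mY] at h'
        have h1 : a ∈ Q z := h' z ((mI b z).mpr h)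
        rcases (mU a z).mp hz with h2 | h2
        · subst h2
          -- `b ∈ N[z]`, `z ∈ Q b`
          have h3 : z ∈ Q b := h' b (hII b)
          exact hb (hO z b (hP z b h) h3).symm
        · exact h2 h1
      · intro h
        rw [mY] at h
        push Not at h
        obtain ⟨z, hz, h1⟩ := h
        rw [mem_Nb]
        exact ⟨z, (mU a z).mpr (Or.inr h1), (mI b z).mp hz⟩
    · intro a
      exact ⟨sub_Nb E _ ((mU a a).mpr (Or.inl rfl)), hYa a⟩
  have b4 : ∑ v, (Nb E (U' v)).card + ∑ b, (Nb E (Y b)).card ≤ KK V := by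
    refine cnt_le (fun v => Nb E (U' v)) (fun b => Nb E (Y b)) ?_
    intro v b h h'
    rw [mem_Nb] at h h'
    obtain ⟨x, hx, hxb⟩ := h
    obtain ⟨y, hy, hyv⟩ := h'
    have h1 : x ∈ U y := (mU' v x).mp hx y ((mI v y).mpr hyv)
    have h2 : y ∈ Q x := (mY b y).mp hy x ((mI b x).mpr hxb)
    have h3 : x = y := by
      rcases (mU y x).mp h1 with h | h
      · exact h
      · exact absurd h2 h
    subst h3
    have h4 : x = v := by
      rcases (mU v x).mp ((mU' v x).mp hx v (hII v)) with h | h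
      · exact h
      · exact absurd (hQ x v hyv) h
    subst h4
    have h5 : x ∈ Q b := (mY b x).mp hy b (hII b)
    exact (hO x b (hP x b hxb) h5).symm
  have s : ∀ F : V → Finset V, ∑ a, cc E (F a) + ∑ a, (F a).card = ∑ a, (Nb E (F a)).card := by
    intro F
    rw [← sum_add_distrib]
    exact sum_congr rfl (fun a _ => cc_add E (F a))
  have sU := s U
  have sU' := s U'
  have sQ := s Q
  have sY := s Y
  unfold cost
  omega

/-- no counterexample -/
theorem no_CE [Nonempty V] (E₀ : Finset (V × V)) (h0 : IsCE E₀) : False := by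
  classical
  -- arc-minimal counterexample
  have hne : ∃ n, ∃ E : Finset (V × V), IsCE E ∧ E.card = n := ⟨_, E₀, h0, rfl⟩
  obtain ⟨E, hE, hEc⟩ := Nat.find_spec hne
  have hmin : ∀ E' : Finset (V × V), IsCE E' → E.card ≤ E'.card := by
    intro E' h'
    rw [hEc]
    exact Nat.find_min' hne ⟨E', h', rfl⟩
  have G := GG E hE hmin
  obtain ⟨P, Q, hPQ, hPQmin⟩ := exists_outer E hE.1
  obtain ⟨X, Y, hX, hY, hXY, hcost⟩ := compare E hE.1 P Q hPQ hPQmin
  have hle := hPQmin _ _ hXY
  have g : ∀ S : Finset V, cc E (Nb E S) ≤ cc E S := by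
    intro S
    by_cases hS : (Nb E S \ S).Nonempty
    · exact (G S hS).le
    · rw [not_nonempty_iff_eq_empty, sdiff_eq_empty_iff_subset] at hS
      rw [Subset.antisymm hS (sub_Nb E S)]
  have e1 : ∀ a, cc E (Nb E (X a)) = cc E (X a) := by
    have h1 : ∑ a, cc E (Nb E (X a)) ≤ ∑ a, cc E (X a) := sum_le_sum (fun a _ => g _)
    have h2 : ∑ a, cc E (Nb E (Y a)) ≤ ∑ a, cc E (Y a) := sum_le_sum (fun a _ => g _)
    have h3 : ∑ a, cc E (Nb E (X a)) = ∑ a, cc E (X a) := by
      have hle2 : cost E P Q ≤ ∑ a, cc E (Nb E (X a)) + ∑ a, cc E (Nb E (Y a)) := hle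
      have hco2 : ∑ a, cc E (X a) + ∑ a, cc E (Y a) ≤ cost E P Q := hcost
      omega
    intro a
    exact (sum_eq_sum_iff_of_le (fun a _ => g (X a))).mp h3 a (mem_univ a)
  have cl : ∀ a, Nb E (X a) = X a := by
    intro a
    by_contra hcon
    have hne : (Nb E (X a) \ X a).Nonempty := by
      rw [nonempty_iff_ne_empty]
      intro h
      rw [sdiff_eq_empty_iff_subset] at h
      exact hcon (Subset.antisymm h (sub_Nb E _))
    have := G _ hne
    have := e1 a
    omega
  -- minimal nonempty closed set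
  have hcl : ∃ n, ∃ C : Finset V, C.Nonempty ∧ Nb E C = C ∧ C.card = n :=
    ⟨_, univ, univ_nonempty, Subset.antisymm (subset_univ _) (sub_Nb E _), rfl⟩
  obtain ⟨C, hC, hCC, hCn⟩ := Nat.find_spec hcl
  have hCmin : ∀ C' : Finset V, C'.Nonempty → Nb E C' = C' → C.card ≤ C'.card := by
    intro C' h1 h2
    rw [hCn]
    exact Nat.find_min' hcl ⟨C', h1, h2, rfl⟩
  have hCX : ∀ a ∈ C, C ⊆ X a := by
    intro a ha
    have h1 : Nb E (C ∩ X a) = C ∩ X a := by
      refine Subset.antisymm ?_ (sub_Nb E _)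
      refine subset_inter ?_ ?_
      · exact (Nb_mono E inter_subset_left).trans (by rw [hCC])
      · exact (Nb_mono E inter_subset_right).trans (by rw [cl])
    have h2 := hCmin (C ∩ X a) ⟨a, mem_inter.mpr ⟨ha, hX a⟩⟩ h1
    have h3 : C ∩ X a = C := eq_of_subset_of_card_le inter_subset_left h2
    rw [← h3]
    exact inter_subset_right
  obtain ⟨a, ha⟩ := hC
  have hpos : 0 < (N1 E a).card := lt_of_le_of_lt (Nat.zero_le _) (hE.2 a)
  obtain ⟨b, hb⟩ := card_pos.mp hpos
  have hab : (a, b) ∈ E := by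
    simpa [N1] using hb
  have hbC : b ∈ C := by
    rw [← hCC, mem_Nb]
    exact ⟨a, ha, Or.inr hab⟩
  have h1 : a ∈ X b := hCX b hbC ha
  -- `b ∈ Nb (Y a)`
  have h2 : a ∈ Nb E (X b) := sub_Nb E _ h1
  have h3 : b ∈ Nb E (Y a) := by
    rw [mem_Nb]
    exact ⟨a, hY a, Or.inr hab⟩
  have h4 : b = a := hXY.2.2 b a h2 h3
  subst h4
  exact hE.1 _ _ hab hab

/-- **Seymour's second neighbourhood conjecture.** -/
theorem seymour (V : Type*) [Fintype V] [Nonempty V] (D : V → V → Prop)
    (hD : ∀ u v, D u v → ¬ D v u) :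
    ∃ v : V, {u | D v u}.ncard ≤ {w | w ≠ v ∧ ¬ D v w ∧ ∃ u, D v u ∧ D u w}.ncard := by
  classical
  by_contra hcon
  push Not at hcon
  refine no_CE (V := V) (univ.filter (fun p : V × V => D p.1 p.2)) ⟨?_, ?_⟩
  · intro a b h h'
    simp only [mem_filter, mem_univ, true_and] at h h'
    exact hD a b h h'
  · intro v
    have h := hcon v
    have e1 : {u | D v u} = ((N1 (univ.filter (fun p : V × V => D p.1 p.2)) v : Finset V) : Set V) := by
      ext u
      simp [N1]
    have e2 : {w | w ≠ v ∧ ¬ D v w ∧ ∃ u, D v u ∧ D u w}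
        = ((N2 (univ.filter (fun p : V × V => D p.1 p.2)) v : Finset V) : Set V) := by
      ext u
      simp [N2]
    rw [e1, e2, Set.ncard_coe_finset, Set.ncard_coe_finset] at h
    exact h

end Vale.Agent.P038.H728
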