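import Mathlib

/-!
# P038: Seymour's second neighbourhood conjecture, self-contained (helper728's hedge copy)

Mathematics: 294's (G) in an arc-minimal counterexample, 413 / 366 / 657's two-cut comparison,
848 / 652 / 564's candidate (left interiors), 362 / 787 / 360's greedy marginal proof.
Everything unweighted.
-/

open Finset

namespace Vale.Agent.P038.H728

section Abstract

variable {V : Type*} [Fintype V] [DecidableEq V]

/-- minimum of `c` over the interval `[P,Q]` -/
noncomputable def kk (c : Finset V → ℕ) (P Q : Finset V) : ℕ :=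
  sInf {n | ∃ Y, P ⊆ Y ∧ Y ⊆ Q ∧ c Y = n}

lemma kk_le (c : Finset V → ℕ) {P Q Y : Finset V} (h1 : P ⊆ Y) (h2 : Y ⊆ Q) :
    kk c P Q ≤ c Y :=
  Nat.sInf_le ⟨Y, h1, h2, rfl⟩

lemma kk_mem (c : Finset V → ℕ) {P Q : Finset V} (h : P ⊆ Q) :
    ∃ Y, P ⊆ Y ∧ Y ⊆ Q ∧ c Y = kk c P Q :=
  Nat.sInf_mem (s := {n | ∃ Y, P ⊆ Y ∧ Y ⊆ Q ∧ c Y = n}) ⟨c P, P, Subset.refl _, h, rfl⟩

lemma kk_mono (c : Finset V → ℕ) {P P' Q : Finset V} (h : P ⊆ P') (h' : P' ⊆ Q) :
    kk c P Q ≤ kk c P' Q := by
  obtain ⟨Y, h1, h2, h3⟩ := kk_mem c h'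
  rw [← h3]
  exact kk_le c (h.trans h1) h2

lemma kk_self (c : Finset V → ℕ) (Q : Finset V) : kk c Q Q = c Q := by
  obtain ⟨Y, h1, h2, h3⟩ := kk_mem c (Subset.refl Q)
  rw [← h3, Subset.antisymm h2 h1]

lemma kk_sub (c : Finset V → ℕ) (sub : ∀ S T, c (S ∩ T) + c (S ∪ T) ≤ c S + c T)
    {K' K X Y : Finset V} {b : V} (hK : K' ⊆ K) (hX : X ⊆ K') (hXY : X ⊆ Y) (hY : Y ⊆ K)
    (hb : b ∈ K') :
    kk c (insert b Y) K + kk c X K' ≤ kk c (insert b X) K' + kk c Y K := by
  obtain ⟨Z', a1, a2, a3⟩ := kk_mem c (P := insert b X) (Q := K') (insert_subset hb hX)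
  obtain ⟨Z, b1, b2, b3⟩ := kk_mem c hY
  have := sub Z' Z
  have e1 : kk c X K' ≤ c (Z' ∩ Z) :=
    kk_le c (subset_inter ((subset_insert _ _).trans a1) (hXY.trans b1))
      (inter_subset_left.trans a2)
  have e2 : kk c (insert b Y) K ≤ c (Z' ∪ Z) :=
    kk_le c (insert_subset (mem_union_left _ (a1 (mem_insert_self _ _)))
      (b1.trans subset_union_right)) (union_subset (a2.trans hK) b2)
  omega

lemma nat_layer (m M : ℕ) (h : m ≤ M) : m = ∑ s ∈ range M, if s < m then 1 else 0 := by
  rw [← Finset.card_filter]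
  have : (range M).filter (fun s => s < m) = range m := by
    ext s
    simp only [mem_filter, mem_range]
    omega
  rw [this, card_range]

lemma layer (d e : V → ℕ)
    (h : ∀ s, (univ.filter (fun a => s < d a)).card ≤ (univ.filter (fun v => s < e v)).card) :
    ∑ a, d a ≤ ∑ v, e v := by
  set M := (∑ a, d a) + ∑ v, e v with hM
  have hd : ∀ a, d a ≤ M := fun a =>
    (Finset.single_le_sum (fun _ _ => Nat.zero_le _) (mem_univ a)).trans (Nat.le_add_right _ _)
  have he : ∀ a, e a ≤ M := fun a =>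
    (Finset.single_le_sum (f := e) (fun _ _ => Nat.zero_le _) (mem_univ a)).trans
      (Nat.le_add_left _ _)
  calc ∑ a, d a = ∑ a, ∑ s ∈ range M, (if s < d a then 1 else 0) :=
        sum_congr rfl (fun a _ => nat_layer _ _ (hd a))
    _ = ∑ s ∈ range M, ∑ a, (if s < d a then 1 else 0) := sum_comm
    _ ≤ ∑ s ∈ range M, ∑ a, (if s < e a then 1 else 0) := by
        refine sum_le_sum (fun s _ => ?_)
        rw [← Finset.card_filter, ← Finset.card_filter]
        exact h s
    _ = ∑ a, ∑ s ∈ range M, (if s < e a then 1 else 0) := sum_comm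
    _ = ∑ a, e a := sum_congr rfl (fun a _ => (nat_layer _ _ (he a)).symm)

/-- the key inequality (greedy marginals) -/
theorem star (c : Finset V → ℕ) (sub : ∀ S T, c (S ∩ T) + c (S ∪ T) ≤ c S + c T)
    (L U L' U' : V → Finset V) (I : V → Finset V)
    (hI : ∀ v, v ∈ I v)
    (hL' : ∀ v b, b ∈ L' v ↔ ∀ z ∈ I v, b ∈ L z)
    (hU' : ∀ v b, b ∈ U' v ↔ ∀ z ∈ I v, b ∈ U z)
    (hLU : ∀ a, L a ⊆ U a)
    (R : ∀ a S, L a ⊆ S → S ⊆ U a → c (L a) ≤ c S)
    (C : ∀ b, ∀ T : Finset V, (∀ a ∈ T, b ∈ U a ∧ b ∉ L a) →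
      T.card ≤ (univ.filter (fun v => b ∈ U' v ∧ ∃ z ∈ I v, z ∈ T)).card) :
    ∑ a, c (U a) + ∑ v, c (L' v) ≤ ∑ v, c (U' v) + ∑ a, c (L a) := by
  have hLU' : ∀ v, L' v ⊆ U' v := by
    intro v b hb
    rw [hU']
    rw [hL'] at hb
    exact fun z hz => hLU z (hb z hz)
  have R' : ∀ v Z, L' v ⊆ Z → Z ⊆ U' v → c (L' v) ≤ c Z := by
    intro v Z h1 h2
    have key : ∀ J : Finset V, J ⊆ I v → c (Z.filter (fun b => ∀ z ∈ J, b ∈ L z)) ≤ c Z := by
      intro J
      induction J using Finset.induction_on with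
      | empty =>
        intro _
        simp
      | insert z J hz ih =>
        intro hJ
        have ih' := ih ((subset_insert _ _).trans hJ)
        have hzI : z ∈ I v := hJ (mem_insert_self _ _)
        have e : Z.filter (fun b => ∀ y ∈ insert z J, b ∈ L y)
            = (Z.filter (fun b => ∀ y ∈ J, b ∈ L y)) ∩ L z := by
          ext b
          simp only [mem_filter, mem_inter, mem_insert, forall_eq_or_imp]
          tauto
        rw [e]
        have s := sub (Z.filter (fun b => ∀ y ∈ J, b ∈ L y)) (L z)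
        have r := R z ((Z.filter (fun b => ∀ y ∈ J, b ∈ L y)) ∪ L z) subset_union_right
          (union_subset (fun b hb => by
            have hb' := h2 (mem_filter.mp hb).1
            rw [hU'] at hb'
            exact hb' z hzI) (hLU z))
        omega
    have e : Z.filter (fun b => ∀ z ∈ I v, b ∈ L z) = L' v := by
      ext b
      rw [mem_filter, ← hL']
      exact ⟨fun h => h.2, fun h => ⟨h1 h, h⟩⟩
    rw [← e]
    exact key (I v) (Subset.refl _)
  -- induction over `W`
  have main : ∀ W : Finset V,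
      ∑ a, kk c (L a ∪ (W ∩ U a)) (U a) + ∑ v, c (L' v)
        ≤ ∑ v, kk c (L' v ∪ (W ∩ U' v)) (U' v) + ∑ a, c (L a) := by
    intro W
    induction W using Finset.induction_on with
    | empty =>
      have e1 : ∀ a, kk c (L a ∪ (∅ ∩ U a)) (U a) ≤ c (L a) := by
        intro a
        refine kk_le c ?_ (hLU a)
        simp
      have e2 : ∀ v, c (L' v) ≤ kk c (L' v ∪ (∅ ∩ U' v)) (U' v) := by
        intro v
        have hs : L' v ∪ (∅ ∩ U' v) ⊆ U' v := by simpa using hLU' v
        obtain ⟨Y, h1, h2, h3⟩ := kk_mem c hs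
        rw [← h3]
        exact R' v Y (subset_union_left.trans h1) h2
      have := sum_le_sum (s := univ) (fun a (_ : a ∈ univ) => e1 a)
      have := sum_le_sum (s := univ) (fun a (_ : a ∈ univ) => e2 a)
      omega
    | insert b W hb ih =>
      -- marginals
      have hs : ∀ a, L a ∪ (W ∩ U a) ⊆ U a := fun a =>
        union_subset (hLU a) inter_subset_right
      have hs' : ∀ a, L a ∪ (insert b W ∩ U a) ⊆ U a := fun a =>
        union_subset (hLU a) inter_subset_right
      have ht : ∀ a, L' a ∪ (W ∩ U' a) ⊆ U' a := fun a =>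
        union_subset (hLU' a) inter_subset_right
      have ht' : ∀ a, L' a ∪ (insert b W ∩ U' a) ⊆ U' a := fun a =>
        union_subset (hLU' a) inter_subset_right
      have m1 : ∀ a, kk c (L a ∪ (W ∩ U a)) (U a) ≤ kk c (L a ∪ (insert b W ∩ U a)) (U a) :=
        fun a => kk_mono c (union_subset_union (Subset.refl _)
          (inter_subset_inter (subset_insert _ _) (Subset.refl _))) (hs' a)
      have m2 : ∀ a, kk c (L' a ∪ (W ∩ U' a)) (U' a)
          ≤ kk c (L' a ∪ (insert b W ∩ U' a)) (U' a) :=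
        fun a => kk_mono c (union_subset_union (Subset.refl _)
          (inter_subset_inter (subset_insert _ _) (Subset.refl _))) (ht' a)
      have z1 : ∀ a, ¬ (b ∈ U a ∧ b ∉ L a) →
          kk c (L a ∪ (insert b W ∩ U a)) (U a) = kk c (L a ∪ (W ∩ U a)) (U a) := by
        intro a ha
        have : L a ∪ (insert b W ∩ U a) = L a ∪ (W ∩ U a) := by
          ext x
          simp only [mem_union, mem_inter, mem_insert]
          constructor
          · rintro (h | ⟨h | h, h'⟩)
            · exact Or.inl h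
            · subst h
              by_cases hx : x ∈ L a
              · exact Or.inl hx
              · exact absurd ⟨h', hx⟩ ha
            · exact Or.inr ⟨h, h'⟩
          · rintro (h | ⟨h, h'⟩)
            · exact Or.inl h
            · exact Or.inr ⟨Or.inr h, h'⟩
        rw [this]
      have ins : ∀ (P Q : Finset V), b ∈ Q → P ∪ (insert b W ∩ Q) = insert b (P ∪ (W ∩ Q)) := by
        intro P Q hQ
        ext x
        simp only [mem_union, mem_inter, mem_insert]
        constructor
        · rintro (h | ⟨h | h, h'⟩)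
          · exact Or.inr (Or.inl h)
          · exact Or.inl h
          · exact Or.inr (Or.inr ⟨h, h'⟩)
        · rintro (h | h | ⟨h, h'⟩)
          · exact Or.inr ⟨Or.inl h, h ▸ hQ⟩
          · exact Or.inl h
          · exact Or.inr ⟨Or.inr h, h'⟩
      have cmp : ∀ v z, z ∈ I v → b ∈ U' v →
          kk c (L z ∪ (insert b W ∩ U z)) (U z) + kk c (L' v ∪ (W ∩ U' v)) (U' v)
            ≤ kk c (L' v ∪ (insert b W ∩ U' v)) (U' v) + kk c (L z ∪ (W ∩ U z)) (U z) := by
        intro v z hz hbv
        have hbz : b ∈ U z := (hU' v b).mp hbv z hz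
        rw [ins _ _ hbz, ins _ _ hbv]
        have hUU : U' v ⊆ U z := fun x hx => (hU' v x).mp hx z hz
        have hLL : L' v ⊆ L z := fun x hx => (hL' v x).mp hx z hz
        exact kk_sub c sub hUU (ht v)
          (union_subset_union hLL (inter_subset_inter (Subset.refl _) hUU)) (hs z) hbv
      have lay : ∑ a, (kk c (L a ∪ (insert b W ∩ U a)) (U a) - kk c (L a ∪ (W ∩ U a)) (U a))
          ≤ ∑ v, (kk c (L' v ∪ (insert b W ∩ U' v)) (U' v)
              - kk c (L' v ∪ (W ∩ U' v)) (U' v)) := by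
        refine layer _ _ (fun s => ?_)
        refine (C b (univ.filter (fun a => s < kk c (L a ∪ (insert b W ∩ U a)) (U a)
          - kk c (L a ∪ (W ∩ U a)) (U a))) ?_).trans ?_
        · intro a ha
          rw [mem_filter] at ha
          by_contra hcon
          have := z1 a hcon
          omega
        · refine card_le_card ?_
          intro v hv
          rw [mem_filter] at hv ⊢
          obtain ⟨_, hbv, z, hz, hzT⟩ := hv
          rw [mem_filter] at hzT
          have := cmp v z hz hbv
          refine ⟨mem_univ _, ?_⟩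
          omega
      have s1 : ∑ a, kk c (L a ∪ (insert b W ∩ U a)) (U a)
          = ∑ a, (kk c (L a ∪ (insert b W ∩ U a)) (U a) - kk c (L a ∪ (W ∩ U a)) (U a))
            + ∑ a, kk c (L a ∪ (W ∩ U a)) (U a) := by
        rw [← sum_add_distrib]
        refine sum_congr rfl (fun a _ => ?_)
        have := m1 a
        omega
      have s2 : ∑ a, kk c (L' a ∪ (insert b W ∩ U' a)) (U' a)
          = ∑ a, (kk c (L' a ∪ (insert b W ∩ U' a)) (U' a) - kk c (L' a ∪ (W ∩ U' a)) (U' a))
            + ∑ a, kk c (L' a ∪ (W ∩ U' a)) (U' a) := by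
        rw [← sum_add_distrib]
        refine sum_congr rfl (fun a _ => ?_)
        have := m2 a
        omega
      omega
  have fin := main univ
  have f1 : ∀ a, kk c (L a ∪ (univ ∩ U a)) (U a) = c (U a) := by
    intro a
    rw [univ_inter, union_eq_right.mpr (hLU a), kk_self]
  have f2 : ∀ a, kk c (L' a ∪ (univ ∩ U' a)) (U' a) = c (U' a) := by
    intro a
    rw [univ_inter, union_eq_right.mpr (hLU' a), kk_self]
  simp only [f1, f2] at fin
  exact fin

end Abstract

end Vale.Agent.P038.H728
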